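import Mathlib

/-! Row 305: the finite Bayesian core statement. -/

set_option autoImplicit false
noncomputable section
namespace Crest.Agent.R305
open scoped Classical

/-- weight classes : `none` has weight `0`, `some i` has weight `δ ^ i` -/
def wt (δ : ℝ) : Option ℤ → ℝ
  | none => 0
  | some i => δ ^ i

/-- deterministic strategy : colouring, classes of the elements of nonzero colour, accepted set,
arriving element, its class -/
abbrev Strat (k N : ℕ) : Type :=
  (Fin k → Fin (N + 1)) → (Fin k → Option (Option ℤ)) → Finset (Fin k) → Fin k → Option ℤ → Bool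

variable {k N : ℕ}

/-- classes are visible exactly on the nonzero colours -/
def mask (χ : Fin k → Fin (N + 1)) (c : Fin k → Option ℤ) : Fin k → Option (Option ℤ) :=
  fun e => if χ e = 0 then none else some (c e)

/-- one arrival -/
def step (M : Matroid (Fin k)) (x : Strat k N) (χ : Fin k → Fin (N + 1)) (c : Fin k → Option ℤ)
    (A : Finset (Fin k)) (e : Fin k) : Finset (Fin k) :=
  if χ e = 0 ∧ M.Indep (↑(insert e A) : Set (Fin k)) ∧ x χ (mask χ c) A e (c e) = true
  then insert e A else A

/-- accepted set -/
def run (M : Matroid (Fin k)) (x : Strat k N) (χ : Fin k → Fin (N + 1)) (c : Fin k → Option ℤ)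
    (l : List (Fin k)) : Finset (Fin k) := l.foldl (step M x χ c) ∅

/-- value against the worst arrival order -/
def val (δ : ℝ) (M : Matroid (Fin k)) (x : Strat k N) (χ : Fin k → Fin (N + 1))
    (c : Fin k → Option ℤ) : ℝ :=
  (Finset.univ : Finset (Equiv.Perm (Fin k))).inf' Finset.univ_nonempty
    fun σ => ∑ e ∈ run M x χ c (List.ofFn σ), wt δ (c e)

/-- the finite Bayesian core : for every finitely supported prior `p` on class vectors, with an
independent set `I c` attached to each class vector, some deterministic strategy earns a `κ`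
fraction on average over the uniform colouring -/
def Core (κ δ : ℝ) (N : ℕ) : Prop :=
  ∀ (k : ℕ) (M : Matroid (Fin k)) (s : Finset (Fin k → Option ℤ)) (p : (Fin k → Option ℤ) → ℝ)
    (I : (Fin k → Option ℤ) → Finset (Fin k)), (∀ c, 0 ≤ p c) → ∑ c ∈ s, p c = 1 →
    (∀ c, M.Indep (↑(I c) : Set (Fin k))) →
    ∃ x : Strat k N, κ * ∑ c ∈ s, p c * ∑ e ∈ I c, wt δ (c e) ≤
      ∑ c ∈ s, p c * ((∑ χ : Fin k → Fin (N + 1), val δ M x χ c) / ((N : ℝ) + 1) ^ k)

end Crest.Agent.R305
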