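import Mathlib

/-! Row 305: minimax plus compactness: one mixed strategy that is good against every input. -/

set_option autoImplicit false
open MeasureTheory
noncomputable section
namespace Crest.Agent.R305

variable {Om : Type*} [TopologicalSpace Om] [CompactSpace Om] [T2Space Om] [MeasurableSpace Om]
  [BorelSpace Om]

theorem mix_fin {F : Type*} [Fintype F] (g : F → Om → ℝ) (hg : ∀ i, Continuous (g i)) (ε : ℝ)
    (hε : 0 < ε) (h : ∀ p : F → ℝ, (∀ i, 0 ≤ p i) → ∑ i, p i = 1 → ∃ om, 0 ≤ ∑ i, p i * g i om)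
    (om0 : Om) : ∃ μ : ProbabilityMeasure Om, ∀ i, -ε ≤ ∫ x, g i x ∂(μ : Measure Om) := by
  classical
  by_contra hcon
  push Not at hcon
  have hint : ∀ i (μ : Measure Om) [IsFiniteMeasure μ], Integrable (g i) μ := fun i μ _ =>
    (BoundedContinuousFunction.mkOfCompact ⟨g i, hg i⟩).integrable μ
  set K : Set (F → ℝ) := {t | ∃ μ : Measure Om, IsProbabilityMeasure μ ∧ ∀ i, t i = ∫ x, g i x ∂μ}
    with hK
  set U : Set (F → ℝ) := Set.pi Set.univ fun _ => Set.Ioi (-ε) with hU
  have hUc : Convex ℝ U := convex_pi fun _ _ => convex_Ioi _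
  have hUo : IsOpen U := isOpen_set_pi Set.finite_univ fun _ _ => isOpen_Ioi
  have hKc : Convex ℝ K := by
    rintro t ⟨μ, h1, h2⟩ t' ⟨ν, h3, h4⟩ a b ha hb hab
    refine ⟨ENNReal.ofReal a • μ + ENNReal.ofReal b • ν, ⟨?_⟩, fun i => ?_⟩
    · simp only [Measure.add_apply, Measure.smul_apply, measure_univ, smul_eq_mul, mul_one]
      rw [← ENNReal.ofReal_add ha hb, hab, ENNReal.ofReal_one]
    · rw [integral_add_measure ((hint i μ).smul_measure ENNReal.ofReal_ne_top)
        ((hint i ν).smul_measure ENNReal.ofReal_ne_top), integral_smul_measure,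
        integral_smul_measure, ENNReal.toReal_ofReal ha, ENNReal.toReal_ofReal hb]
      simp [h2 i, h4 i]
  have hdisj : Disjoint U K := by
    rw [Set.disjoint_left]
    rintro t ht ⟨μ, h1, h2⟩
    obtain ⟨i, hi⟩ := hcon ⟨μ, h1⟩
    have := ht i (Set.mem_univ _)
    rw [Set.mem_Ioi, h2 i] at this
    exact absurd hi (not_lt.2 this.le)
  obtain ⟨f, u, h1, h2⟩ := geometric_hahn_banach_open hUc hUo hKc hdisj
  have hf : ∀ t : F → ℝ, f t = ∑ i, t i * f (Pi.single i 1) := fun t => by
    conv_lhs => rw [← Finset.univ_sum_single t]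
    rw [map_sum]
    refine Finset.sum_congr rfl fun i _ => ?_
    rw [← smul_eq_mul, ← map_smul]
    congr 1
    ext j
    by_cases hj : j = i
    · subst hj; simp
    · simp [hj]
  have h0 : (0 : ℝ) < u := by
    have := h1 0 fun i _ => by simpa using hε
    simpa using this
  have hneg : ∀ i, f (Pi.single i 1) ≤ 0 := fun i => by
    by_contra hc
    push Not at hc
    have := h1 ((u / f (Pi.single i 1)) • Pi.single i 1) fun j _ => by
      have : 0 ≤ ((u / f (Pi.single i 1)) • (Pi.single i 1 : F → ℝ)) j := by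
        rw [Pi.smul_apply, smul_eq_mul]
        refine mul_nonneg (by positivity) ?_
        by_cases hj : j = i
        · subst hj; simp
        · simp [hj]
      rw [Set.mem_Ioi]; linarith
    rw [map_smul, smul_eq_mul, div_mul_cancel₀ _ hc.ne'] at this
    exact lt_irrefl _ this
  have hdir : ∀ om : Om, u ≤ ∑ i, g i om * f (Pi.single i 1) := fun om => by
    have := h2 (fun i => g i om) ⟨Measure.dirac om, inferInstance, fun i =>
      (integral_dirac' _ _ (hg i).stronglyMeasurable).symm⟩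
    rwa [hf] at this
  set c : ℝ := ∑ i, -f (Pi.single i 1) with hc
  have hc0 : 0 < c := by
    rcases (Finset.sum_nonneg fun i _ => neg_nonneg.2 (hneg i) : 0 ≤ c).lt_or_eq with a | a
    · exact a
    · have hz := (Finset.sum_eq_zero_iff_of_nonneg fun i _ => neg_nonneg.2 (hneg i)).1 a.symm
      have := hdir om0
      rw [Finset.sum_eq_zero fun i hi => by rw [neg_eq_zero.1 (hz i hi), mul_zero]] at this
      linarith
  obtain ⟨om, hom⟩ := h (fun i => -f (Pi.single i 1) / c)
    (fun i => div_nonneg (neg_nonneg.2 (hneg i)) hc0.le) (by rw [← Finset.sum_div, div_self hc0.ne'])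
  have e : ∑ i, -f (Pi.single i 1) / c * g i om = -(∑ i, g i om * f (Pi.single i 1)) / c := by
    rw [← Finset.sum_neg_distrib, Finset.sum_div]
    exact Finset.sum_congr rfl fun i _ => by ring
  rw [e, le_div_iff₀ hc0] at hom
  have := hdir om
  linarith

theorem mix {I : Type*} (g : I → Om → ℝ) (hg : ∀ i, Continuous (g i)) (om0 : Om)
    (h : ∀ (s : Finset I) (p : I → ℝ), (∀ i, 0 ≤ p i) → ∑ i ∈ s, p i = 1 →
      ∃ om, 0 ≤ ∑ i ∈ s, p i * g i om) :
    ∃ μ : Measure Om, IsProbabilityMeasure μ ∧ ∀ i, 0 ≤ ∫ x, g i x ∂μ := by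
  classical
  set C : Finset I × {ε : ℝ // 0 < ε} → Set (ProbabilityMeasure Om) := fun q =>
    {μ | ∀ i ∈ q.1, -q.2.1 ≤ ∫ x, g i x ∂(μ : Measure Om)} with hC
  have hcl : ∀ q, IsClosed (C q) := fun q => by
    have : C q = ⋂ i ∈ q.1, {μ : ProbabilityMeasure Om | -q.2.1 ≤ ∫ x, g i x ∂(μ : Measure Om)} := by
      ext μ; simp [hC]
    rw [this]
    refine isClosed_biInter fun i _ => isClosed_le continuous_const ?_
    exact ProbabilityMeasure.continuous_integral_boundedContinuousFunction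
      (BoundedContinuousFunction.mkOfCompact ⟨g i, hg i⟩)
  have hne : ∀ q, (C q).Nonempty := fun q => by
    obtain ⟨μ, hμ⟩ := mix_fin (F := q.1) (fun i => g i) (fun i => hg i) q.2.1 q.2.2 (fun p h1 h2 => by
      obtain ⟨om, ho⟩ := h q.1 (fun i => if hi : i ∈ q.1 then p ⟨i, hi⟩ else 0)
        (fun i => by split_ifs; exacts [h1 _, le_rfl]) (by
          rw [← h2, ← Finset.sum_coe_sort]
          exact Finset.sum_congr rfl fun i _ => by simp)
      refine ⟨om, ho.trans_eq ?_⟩
      rw [← Finset.sum_coe_sort]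
      exact Finset.sum_congr rfl fun i _ => by simp) om0
    exact ⟨μ, fun i hi => hμ ⟨i, hi⟩⟩
  have hdir : Directed (· ⊇ ·) C := fun q r =>
    ⟨(q.1 ∪ r.1, ⟨min q.2.1 r.2.1, lt_min q.2.2 r.2.2⟩),
      fun μ hμ i hi => le_trans (neg_le_neg (min_le_left _ _)) (hμ i (Finset.mem_union_left _ hi)),
      fun μ hμ i hi => le_trans (neg_le_neg (min_le_right _ _)) (hμ i (Finset.mem_union_right _ hi))⟩
  haveI : Nonempty (Finset I × {ε : ℝ // 0 < ε}) := ⟨(∅, ⟨1, one_pos⟩)⟩
  obtain ⟨μ, hμ⟩ := IsCompact.nonempty_iInter_of_directed_nonempty_isCompact_isClosed C hdir hne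
    (fun q => (hcl q).isCompact) hcl
  refine ⟨μ, inferInstance, fun i => le_of_forall_pos_le_add fun ε hε => ?_⟩
  have := Set.mem_iInter.1 hμ ({i}, ⟨ε, hε⟩) i (Finset.mem_singleton_self i)
  simp only at this
  linarith

end Crest.Agent.R305
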