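import Mathlib

/-! Row 305: real-valued matroid rank, conditional rank and span on finsets. -/

set_option autoImplicit false

namespace Crest.Agent.R305

open Finset

variable {k : ℕ}

/-- natural-number rank -/
noncomputable def nrk (M : Matroid (Fin k)) (X : Finset (Fin k)) : ℕ :=
  (M.eRk (X : Set (Fin k))).toNat

/-- real-valued rank -/
noncomputable def rk (M : Matroid (Fin k)) (X : Finset (Fin k)) : ℝ := (nrk M X : ℝ)

/-- conditional rank `r(X | Y)` -/
noncomputable def crk (M : Matroid (Fin k)) (X Y : Finset (Fin k)) : ℝ := rk M (X ∪ Y) - rk M Y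

/-- `e` is spanned by `X` (loops and elements outside the ground set are always spanned) -/
def sp (M : Matroid (Fin k)) (X : Finset (Fin k)) (e : Fin k) : Prop := rk M (insert e X) = rk M X

theorem nrk_cast (M : Matroid (Fin k)) (X : Finset (Fin k)) :
    (nrk M X : ℕ∞) = M.eRk (X : Set (Fin k)) :=
  ENat.natCast_toNat (ne_top_of_le_ne_top (by simp) (M.eRk_le_encard _))

theorem rk_nonneg (M : Matroid (Fin k)) (X : Finset (Fin k)) : 0 ≤ rk M X := Nat.cast_nonneg _

@[simp] theorem rk_empty (M : Matroid (Fin k)) : rk M ∅ = 0 := by simp [rk, nrk]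

theorem rk_mono (M : Matroid (Fin k)) {X Y : Finset (Fin k)} (h : X ⊆ Y) : rk M X ≤ rk M Y := by
  have := M.eRk_mono (show (X : Set (Fin k)) ⊆ Y from h)
  rw [← nrk_cast, ← nrk_cast] at this
  unfold rk
  exact_mod_cast this

theorem rk_submod (M : Matroid (Fin k)) (X Y : Finset (Fin k)) :
    rk M (X ∩ Y) + rk M (X ∪ Y) ≤ rk M X + rk M Y := by
  have := M.eRk_inter_add_eRk_union_le (X : Set (Fin k)) Y
  rw [← coe_inter, ← coe_union, ← nrk_cast, ← nrk_cast, ← nrk_cast, ← nrk_cast] at this
  have h : nrk M (X ∩ Y) + nrk M (X ∪ Y) ≤ nrk M X + nrk M Y := by exact_mod_cast this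
  unfold rk
  exact_mod_cast h

theorem rk_le_card (M : Matroid (Fin k)) (X : Finset (Fin k)) : rk M X ≤ (X.card : ℝ) := by
  have := M.eRk_le_encard (X : Set (Fin k))
  rw [← nrk_cast, Set.encard_coe_eq_coe_finsetCard] at this
  unfold rk
  exact_mod_cast this

theorem rk_union_le (M : Matroid (Fin k)) (X Y : Finset (Fin k)) :
    rk M (X ∪ Y) ≤ rk M X + rk M Y := by
  have := rk_submod M X Y
  have := rk_nonneg M (X ∩ Y)
  linarith

theorem indep_iff_rk (M : Matroid (Fin k)) (I : Finset (Fin k)) :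
    M.Indep (I : Set (Fin k)) ↔ rk M I = (I.card : ℝ) := by
  rw [M.indep_iff_eRk_eq_encard_of_finite I.finite_toSet, ← nrk_cast,
    Set.encard_coe_eq_coe_finsetCard]
  unfold rk
  constructor
  · intro h; exact_mod_cast h
  · intro h; exact_mod_cast h

theorem rk_indep {M : Matroid (Fin k)} {I : Finset (Fin k)} (h : M.Indep (I : Set (Fin k))) :
    rk M I = (I.card : ℝ) := (indep_iff_rk M I).1 h

/-- three-set submodularity: `r(X ∪ Z) + r(Y ∪ Z) ≥ r(X ∪ Y ∪ Z) + r(Z)`. -/
theorem rk_submod' (M : Matroid (Fin k)) (X Y Z : Finset (Fin k)) :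
    rk M (X ∪ Y ∪ Z) + rk M Z ≤ rk M (X ∪ Z) + rk M (Y ∪ Z) := by
  have h1 := rk_submod M (X ∪ Z) (Y ∪ Z)
  have h2 : rk M Z ≤ rk M ((X ∪ Z) ∩ (Y ∪ Z)) :=
    rk_mono M (subset_inter subset_union_right subset_union_right)
  have h3 : (X ∪ Z) ∪ (Y ∪ Z) = X ∪ Y ∪ Z := by
    ext x; simp only [mem_union]; tauto
  rw [h3] at h1
  linarith

theorem rk_insert_le (M : Matroid (Fin k)) (e : Fin k) (X : Finset (Fin k)) :
    rk M (insert e X) ≤ rk M X + 1 := by
  have h1 := rk_union_le M {e} X
  have h2 := rk_le_card M {e}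
  rw [← insert_eq] at h1
  simp at h2
  linarith

theorem rk_le_insert (M : Matroid (Fin k)) (e : Fin k) (X : Finset (Fin k)) :
    rk M X ≤ rk M (insert e X) := rk_mono M (subset_insert _ _)

theorem rk_insert_of_not_sp {M : Matroid (Fin k)} {X : Finset (Fin k)} {e : Fin k}
    (h : ¬ sp M X e) : rk M (insert e X) = rk M X + 1 := by
  have h1 := rk_insert_le M e X
  have h2 := rk_le_insert M e X
  unfold sp at h
  unfold rk at *
  have h1' : nrk M (insert e X) ≤ nrk M X + 1 := by exact_mod_cast h1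
  have h2' : nrk M X ≤ nrk M (insert e X) := by exact_mod_cast h2
  have h3 : nrk M (insert e X) ≠ nrk M X := fun hh => h (by rw [hh])
  have : nrk M (insert e X) = nrk M X + 1 := by omega
  exact_mod_cast this

open Classical in
theorem rk_insert_eq (M : Matroid (Fin k)) (X : Finset (Fin k)) (e : Fin k) :
    rk M (insert e X) = rk M X + if sp M X e then 0 else 1 := by
  split_ifs with h
  · rw [add_zero]; exact h
  · exact rk_insert_of_not_sp h

theorem crk_nonneg (M : Matroid (Fin k)) (X Y : Finset (Fin k)) : 0 ≤ crk M X Y :=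
  sub_nonneg.2 (rk_mono M subset_union_right)

theorem crk_mono (M : Matroid (Fin k)) {X X' : Finset (Fin k)} (h : X ⊆ X') (Y : Finset (Fin k)) :
    crk M X Y ≤ crk M X' Y :=
  sub_le_sub_right (rk_mono M (union_subset_union h subset_rfl)) _

theorem crk_anti (M : Matroid (Fin k)) (X : Finset (Fin k)) {Y Y' : Finset (Fin k)} (h : Y ⊆ Y') :
    crk M X Y' ≤ crk M X Y := by
  have h1 := rk_submod' M X Y' Y
  have e1 : X ∪ Y' ∪ Y = X ∪ Y' := by
    rw [union_assoc, union_eq_left.2 h]
  have e2 : Y' ∪ Y = Y' := union_eq_left.2 h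
  rw [e1, e2] at h1
  unfold crk
  linarith

/-- chain rule -/
theorem crk_chain (M : Matroid (Fin k)) (X Y Z : Finset (Fin k)) :
    crk M (X ∪ Y) Z = crk M X (Y ∪ Z) + crk M Y Z := by
  unfold crk
  rw [union_assoc]
  ring

theorem crk_union_le (M : Matroid (Fin k)) (X Y Z : Finset (Fin k)) :
    crk M (X ∪ Y) Z ≤ crk M X Z + crk M Y Z := by
  rw [crk_chain]
  have := crk_anti M X (show Z ⊆ Y ∪ Z from subset_union_right)
  linarith

theorem crk_le_rk (M : Matroid (Fin k)) (X Y : Finset (Fin k)) : crk M X Y ≤ rk M X := by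
  have := rk_union_le M X Y
  unfold crk
  linarith

theorem crk_le_card (M : Matroid (Fin k)) (X Y : Finset (Fin k)) : crk M X Y ≤ (X.card : ℝ) :=
  (crk_le_rk M X Y).trans (rk_le_card M X)

@[simp] theorem crk_empty_right (M : Matroid (Fin k)) (X : Finset (Fin k)) :
    crk M X ∅ = rk M X := by simp [crk]

@[simp] theorem crk_empty_left (M : Matroid (Fin k)) (Y : Finset (Fin k)) : crk M ∅ Y = 0 := by
  simp [crk]

theorem crk_of_subset (M : Matroid (Fin k)) {X Y : Finset (Fin k)} (h : X ⊆ Y) :
    crk M X Y = 0 := by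
  simp [crk, union_eq_right.2 h]

/-- triangle inequality -/
theorem crk_triangle (M : Matroid (Fin k)) (X Y Z : Finset (Fin k)) :
    crk M X Z ≤ crk M X Y + crk M Y Z := by
  have h1 := crk_mono M (show X ⊆ X ∪ Y from subset_union_left) Z
  have h2 := crk_chain M X Y Z
  have h3 := crk_anti M X (show Y ⊆ Y ∪ Z from subset_union_left)
  linarith

theorem crk_biUnion_le {ι : Type*} [DecidableEq ι] (M : Matroid (Fin k)) (s : Finset ι)
    (f : ι → Finset (Fin k)) (Z : Finset (Fin k)) :
    crk M (s.biUnion f) Z ≤ ∑ i ∈ s, crk M (f i) Z := by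
  induction s using Finset.induction_on with
  | empty => simp
  | insert a s ha ih =>
    rw [biUnion_insert, sum_insert ha]
    have := crk_union_le M (f a) (s.biUnion f) Z
    linarith

theorem rk_biUnion_le {ι : Type*} [DecidableEq ι] (M : Matroid (Fin k)) (s : Finset ι)
    (f : ι → Finset (Fin k)) : rk M (s.biUnion f) ≤ ∑ i ∈ s, rk M (f i) := by
  simpa using crk_biUnion_le M s f ∅

theorem sp_iff_crk (M : Matroid (Fin k)) (X : Finset (Fin k)) (e : Fin k) :
    sp M X e ↔ crk M {e} X = 0 := by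
  unfold sp crk
  rw [← insert_eq, sub_eq_zero]

open Classical in
theorem crk_singleton (M : Matroid (Fin k)) (X : Finset (Fin k)) (e : Fin k) :
    crk M {e} X = if sp M X e then 0 else 1 := by
  unfold crk
  rw [← insert_eq, rk_insert_eq]
  ring

theorem sp_of_mem (M : Matroid (Fin k)) {X : Finset (Fin k)} {e : Fin k} (h : e ∈ X) :
    sp M X e := by
  unfold sp
  rw [insert_eq_of_mem h]

theorem sp_mono {M : Matroid (Fin k)} {X Y : Finset (Fin k)} {e : Fin k} (h : sp M X e)
    (hXY : X ⊆ Y) : sp M Y e := by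
  rw [sp_iff_crk] at *
  exact le_antisymm (h ▸ crk_anti M {e} hXY) (crk_nonneg _ _ _)

/-- a set of spanned elements has conditional rank zero -/
theorem crk_eq_zero_of_sp {M : Matroid (Fin k)} {X Y : Finset (Fin k)} (h : ∀ e ∈ X, sp M Y e) :
    crk M X Y = 0 := by
  refine le_antisymm ?_ (crk_nonneg _ _ _)
  have h1 := crk_biUnion_le M X (fun e => ({e} : Finset (Fin k))) Y
  rw [biUnion_singleton_eq_self] at h1
  refine h1.trans (le_of_eq (sum_eq_zero fun e he => (sp_iff_crk M Y e).1 (h e he)))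

theorem sp_of_crk_eq_zero {M : Matroid (Fin k)} {X Y : Finset (Fin k)} (h : crk M X Y = 0)
    {e : Fin k} (he : e ∈ X) : sp M Y e := by
  rw [sp_iff_crk]
  exact le_antisymm (h ▸ crk_mono M (singleton_subset_iff.2 he) Y) (crk_nonneg _ _ _)

theorem sp_trans {M : Matroid (Fin k)} {X Y : Finset (Fin k)} {e : Fin k} (h : sp M X e)
    (hX : ∀ x ∈ X, sp M Y x) : sp M Y e := by
  have h1 := crk_triangle M {e} X Y
  rw [(sp_iff_crk M X e).1 h, crk_eq_zero_of_sp hX] at h1
  rw [sp_iff_crk]
  exact le_antisymm (by linarith) (crk_nonneg _ _ _)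

/-- if every element of `X` is spanned by `G ∪ Z` then `r(X | Z) ≤ r(G | Z)`. -/
theorem crk_le_of_sp {M : Matroid (Fin k)} {X G Z : Finset (Fin k)}
    (h : ∀ e ∈ X, sp M (G ∪ Z) e) : crk M X Z ≤ crk M G Z := by
  have h1 := crk_mono M (show X ⊆ X ∪ G from subset_union_left) Z
  have h2 := crk_chain M X G Z
  rw [crk_eq_zero_of_sp h] at h2
  linarith

/-- conditioning on a set spanned by `Y` changes nothing -/
theorem crk_anti_sp {M : Matroid (Fin k)} (X : Finset (Fin k)) {Y Y' : Finset (Fin k)}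
    (h : ∀ e ∈ Y, sp M Y' e) : crk M X Y' ≤ crk M X Y := by
  have := crk_triangle M X Y Y'
  rw [crk_eq_zero_of_sp h] at this
  linarith

theorem rk_le_of_sp {M : Matroid (Fin k)} {X G : Finset (Fin k)} (h : ∀ e ∈ X, sp M G e) :
    rk M X ≤ rk M G := by
  simpa using crk_le_of_sp (M := M) (X := X) (G := G) (Z := ∅) (by simpa using h)

theorem indep_insert_iff {M : Matroid (Fin k)} {A : Finset (Fin k)} {e : Fin k}
    (hA : M.Indep (A : Set (Fin k))) (he : e ∉ A) :
    M.Indep ((insert e A : Finset (Fin k)) : Set (Fin k)) ↔ ¬ sp M A e := by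
  rw [indep_iff_rk, card_insert_of_notMem he]
  have h1 := rk_indep hA
  push_cast
  constructor
  · intro h hs
    unfold sp at hs
    linarith
  · intro h
    rw [rk_insert_of_not_sp h, h1]

/-- an independent union: `r(V | A) = |V|` when `V ∪ A` is independent and disjoint -/
theorem crk_of_indep {M : Matroid (Fin k)} {V A : Finset (Fin k)}
    (h : M.Indep ((V ∪ A : Finset (Fin k)) : Set (Fin k))) (hd : Disjoint V A) :
    crk M V A = (V.card : ℝ) := by
  have hA : M.Indep (A : Set (Fin k)) := h.subset (by simp)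
  unfold crk
  rw [rk_indep h, rk_indep hA, card_union_of_disjoint hd]
  push_cast
  ring

theorem exists_basis (M : Matroid (Fin k)) (X : Finset (Fin k)) :
    ∃ I ⊆ X, M.Indep (I : Set (Fin k)) ∧ (I.card : ℝ) = rk M X ∧ ∀ e ∈ X, sp M I e := by
  obtain ⟨I, hI⟩ := M.exists_isBasis' (X : Set (Fin k))
  have hf : I.Finite := Set.toFinite I
  have h1 : hf.toFinset ⊆ X := by
    intro x hx
    exact hI.subset (by simpa using hx)
  have h2 : M.Indep (hf.toFinset : Set (Fin k)) := by simpa using hI.indep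
  have h3 : rk M hf.toFinset = rk M X := by
    unfold rk nrk
    rw [Set.Finite.coe_toFinset, hI.eRk_eq_eRk]
  refine ⟨hf.toFinset, h1, h2, by rw [← rk_indep h2, h3], fun e he => ?_⟩
  refine le_antisymm ?_ (rk_le_insert _ _ _)
  rw [h3]
  exact rk_mono M (insert_subset he h1)

/-- a conditional basis: `V ⊆ X` with `|V| = r(X | A)`, `r(V | A) = |V|`. -/
theorem exists_cbasis (M : Matroid (Fin k)) (X A : Finset (Fin k)) :
    ∃ V ⊆ X, (V.card : ℝ) = crk M X A ∧ crk M V A = V.card ∧ ∀ e ∈ X, sp M (V ∪ A) e := by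
  induction X using Finset.induction_on with
  | empty => exact ⟨∅, subset_rfl, by simp, by simp, by simp⟩
  | insert a X ha ih =>
    obtain ⟨V, h1, h2, h3, h4⟩ := ih
    have hVX : crk M X (V ∪ A) = 0 := crk_eq_zero_of_sp h4
    have e0 : rk M (X ∪ A) = rk M (V ∪ A) := by unfold crk at h2 h3; linarith
    have key : crk M {a} (X ∪ A) = crk M {a} (V ∪ A) := by
      refine le_antisymm (crk_anti M _ (union_subset_union h1 subset_rfl)) (crk_anti_sp _ ?_)
      intro e he
      rcases mem_union.1 he with he | he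
      · exact h4 e he
      · exact sp_of_mem M (mem_union_right _ he)
    by_cases hs : sp M (V ∪ A) a
    · refine ⟨V, h1.trans (subset_insert _ _), ?_, h3, ?_⟩
      · rw [insert_eq, crk_chain, key, (sp_iff_crk _ _ _).1 hs, h2]; ring
      · intro e he
        rcases mem_insert.1 he with rfl | he
        · exact hs
        · exact h4 e he
    · have haV : a ∉ V := fun h => ha (h1 h)
      have h5 : crk M {a} (V ∪ A) = 1 := by rw [crk_singleton, if_neg hs]
      refine ⟨insert a V, insert_subset_insert _ h1, ?_, ?_, ?_⟩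
      · rw [card_insert_of_notMem haV, insert_eq a X, crk_chain, key, h5, ← h2]; push_cast; ring
      · rw [card_insert_of_notMem haV, insert_eq a V, crk_chain, h5, h3]; push_cast; ring
      · intro e he
        rcases mem_insert.1 he with rfl | he
        · exact sp_of_mem M (mem_union_left _ (mem_insert_self _ _))
        · exact sp_mono (h4 e he) (union_subset_union (subset_insert _ _) subset_rfl)

/-- subsets of a set that is independent modulo `A` are independent modulo `A` -/
theorem crk_eq_card_of_subset {M : Matroid (Fin k)} {V W A : Finset (Fin k)}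
    (h : crk M V A = V.card) (hW : W ⊆ V) : crk M W A = W.card := by
  have h1 := crk_union_le M W (V \ W) A
  rw [union_sdiff_of_subset hW, h] at h1
  have h2 := crk_le_card M (V \ W) A
  have h3 := crk_le_card M W A
  have h4 : ((V \ W).card : ℝ) + W.card = V.card := by exact_mod_cast card_sdiff_add_card_eq_card hW
  linarith

open Classical in
/-- number of elements of an independent-mod-`A` set spanned by `G ∪ A` is at most `r(G | A)` -/
theorem card_sp_le {M : Matroid (Fin k)} {V A : Finset (Fin k)} (h : crk M V A = V.card)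
    (G : Finset (Fin k)) : ((V.filter fun e => sp M (G ∪ A) e).card : ℝ) ≤ crk M G A := by
  rw [← crk_eq_card_of_subset h (filter_subset _ _)]
  exact crk_le_of_sp fun e he => (mem_filter.1 he).2

open Classical in
/-- two-copy inequality: elements of an independent-mod-`A` set spanned by both `G ∪ A` and
`G' ∪ A` number at most `r(G|A) + r(G'|A) - r(G ∪ G'|A)`. -/
theorem card_sp_two_le {M : Matroid (Fin k)} {V A : Finset (Fin k)} (h : crk M V A = V.card)
    (G G' : Finset (Fin k)) :
    ((V.filter fun e => sp M (G ∪ A) e ∧ sp M (G' ∪ A) e).card : ℝ) ≤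
      crk M G A + crk M G' A - crk M (G ∪ G') A := by
  set W := V.filter fun e => sp M (G ∪ A) e ∧ sp M (G' ∪ A) e with hW
  have h0 : crk M W A = W.card := crk_eq_card_of_subset h (filter_subset _ _)
  have h1 : crk M W (G ∪ A) = 0 := crk_eq_zero_of_sp fun e he => (mem_filter.1 he).2.1
  have h2 : crk M W (G' ∪ A) = 0 := crk_eq_zero_of_sp fun e he => (mem_filter.1 he).2.2
  have h3 := rk_submod' M G G' (W ∪ A)
  have h4 : rk M (G ∪ G' ∪ A) ≤ rk M (G ∪ G' ∪ (W ∪ A)) :=
    rk_mono M (union_subset_union subset_rfl subset_union_right)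
  have e1 : G ∪ (W ∪ A) = W ∪ (G ∪ A) := by ext x; simp only [mem_union]; tauto
  have e2 : G' ∪ (W ∪ A) = W ∪ (G' ∪ A) := by ext x; simp only [mem_union]; tauto
  rw [e1, e2] at h3
  unfold crk at *
  linarith

end Crest.Agent.R305
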