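import Crest.Prelude.Def_OnlineMatroid
import Crest.Prelude.Def_SampleRule
import Crest.Agent.R305.CoreDef
import Crest.Agent.R305.Mix

/-! Row 305: the finite Bayesian core implies the statement. -/

set_option autoImplicit false
noncomputable section
namespace Crest.Agent.R305
open scoped Classical ENNReal
open MeasureTheory ProbabilityTheory Crest.OnlineMatroid

universe u

namespace Red

variable {k N : ℕ}

abbrev J (k N : ℕ) : Type :=
  (Fin k → Fin (N + 1)) × (Fin k → Option (Option ℤ)) × Finset (Fin k) × Fin k × Option ℤ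

def toS (o : J k N → Bool) : Strat k N := fun χ m A e c => o (χ, m, A, e, c)

theorem cont_val (δ : ℝ) (M : Matroid (Fin k)) (χ : Fin k → Fin (N + 1))
    (c : Fin k → Option ℤ) : Continuous fun o : J k N → Bool => val δ M (toS o) χ c := by
  let ρ : (J k N → Bool) → (Finset (Fin k) × Fin k → Bool) :=
    fun o q => o (χ, mask χ c, q.1, q.2, c q.2)
  have hρ : Continuous ρ := continuous_pi fun q => continuous_apply _
  let F : (Finset (Fin k) × Fin k → Bool) → ℝ :=
    fun b => val δ M (fun _ _ A e _ => b (A, e)) χ c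
  have hF : Continuous F := continuous_of_discreteTopology
  have e : (fun o : J k N → Bool => val δ M (toS o) χ c) = F ∘ ρ := by
    funext o
    have hs : step M (toS o) χ c = step M (fun _ _ A e _ => ρ o (A, e)) χ c := by
      funext A e; rfl
    simp only [Function.comp, F, val, run, hs]
  rw [e]
  exact hF.comp hρ

theorem wt_nonneg {δ : ℝ} (hδ : 0 < δ) (c : Option ℤ) : 0 ≤ wt δ c := by
  cases c with
  | none => exact le_rfl
  | some i => exact (zpow_pos hδ i).le

theorem val_nonneg {δ : ℝ} (hδ : 0 < δ) (M : Matroid (Fin k)) (x : Strat k N)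
    (χ : Fin k → Fin (N + 1)) (c : Fin k → Option ℤ) : 0 ≤ val δ M x χ c :=
  Finset.le_inf' _ _ fun _ _ => Finset.sum_nonneg fun _ _ => wt_nonneg hδ _

theorem fold_inv (M : Matroid (Fin k)) (x : Strat k N) (χ : Fin k → Fin (N + 1))
    (c : Fin k → Option ℤ) (l : List (Fin k)) : ∀ A : Finset (Fin k),
    M.Indep (↑A : Set (Fin k)) → (∀ e ∈ A, χ e = 0) →
    M.Indep (↑(l.foldl (step M x χ c) A) : Set (Fin k)) ∧
      ∀ e ∈ l.foldl (step M x χ c) A, χ e = 0 := by
  induction l with
  | nil => intro A h1 h2; exact ⟨h1, h2⟩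
  | cons e l ih =>
    intro A h1 h2
    rw [List.foldl_cons]
    apply ih
    · unfold step; split_ifs with h
      · exact h.2.1
      · exact h1
    · unfold step; split_ifs with h
      · intro a ha
        rcases Finset.mem_insert.1 ha with rfl | ha
        · exact h.1
        · exact h2 a ha
      · exact h2

/-- class of a real number -/
def cls (δ : ℝ) (x : ℝ) : Option ℤ :=
  if 0 < x then some ⌈Real.log x / Real.log δ⌉ else none

theorem cls_spec {δ : ℝ} (h0 : 0 < δ) (h1 : δ < 1) {x : ℝ} (hx : 0 ≤ x) :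
    wt δ (cls δ x) ≤ x ∧ δ * x ≤ wt δ (cls δ x) := by
  unfold cls
  split_ifs with h
  · have hl : Real.log δ < 0 := Real.log_neg h0 h1
    set t := Real.log x / Real.log δ with ht
    have hxt : Real.log x = t * Real.log δ := by rw [ht, div_mul_cancel₀ _ hl.ne]
    have hw : wt δ (some ⌈t⌉) = Real.exp ((⌈t⌉ : ℝ) * Real.log δ) := by
      show δ ^ ⌈t⌉ = _
      rw [← Real.rpow_intCast, Real.rpow_def_of_pos h0, mul_comm]
    rw [hw]
    have a1 := Int.le_ceil t
    have a2 := Int.ceil_lt_add_one t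
    constructor
    · calc _ ≤ Real.exp (Real.log x) := Real.exp_le_exp.2 (by rw [hxt]; nlinarith)
        _ = x := Real.exp_log h
    · calc δ * x = Real.exp (Real.log δ + Real.log x) := by
            rw [Real.exp_add, Real.exp_log h0, Real.exp_log h]
        _ ≤ _ := Real.exp_le_exp.2 (by rw [hxt]; nlinarith)
  · have : x = 0 := le_antisymm (not_lt.1 h) hx
    subst this
    simp [wt]

local instance instMO : MeasurableSpace (Option ℤ) := ⊤
local instance instMS : MeasurableSingletonClass (Option ℤ) := ⟨fun _ => trivial⟩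

theorem meas_cls (δ : ℝ) : Measurable (cls δ) := by
  unfold cls
  refine Measurable.ite measurableSet_Ioi ?_ measurable_const
  exact (measurable_from_top (f := fun i : ℤ => (some i : Option ℤ))).comp
    (Int.measurable_ceil.comp (Real.measurable_log.div_const _))

/-- mixed class vector -/
def cv (δ : ℝ) (χ : Fin k → Fin (N + 1)) (s v : Fin k → ℝ) : Fin k → Option ℤ :=
  fun e => cls δ (if χ e = 0 then v e else s e)

def acc (δ : ℝ) (M : Matroid (Fin k)) (r : (J k N → Bool) × (Fin k → Fin (N + 1)))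
    (s : Fin k → ℝ) (A : Finset (Fin k)) (e : Fin k) (y : ℝ) : Prop :=
  r.2 e = 0 ∧ M.Indep (↑(insert e A) : Set (Fin k)) ∧
    toS r.1 r.2 (fun a => if r.2 a = 0 then none else some (cls δ (s a))) A e (cls δ y) = true

def st (δ : ℝ) (M : Matroid (Fin k)) (r : (J k N → Bool) × (Fin k → Fin (N + 1)))
    (s : Fin k → ℝ) (h : List (Fin k × ℝ)) : Finset (Fin k) :=
  h.foldl (fun A p => if acc δ M r s A p.1 p.2 then insert p.1 A else A) ∅

def rule (δ : ℝ) (M : Matroid (Fin k)) (N : ℕ) :
    SampleRule ((J k N → Bool) × (Fin k → Fin (N + 1))) k :=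
  ⟨fun r s h e y => decide (acc δ M r s (st δ M r s h) e y)⟩

theorem step_eq (δ : ℝ) (M : Matroid (Fin k)) (r : (J k N → Bool) × (Fin k → Fin (N + 1)))
    (s v : Fin k → ℝ) (A : Finset (Fin k)) (e : Fin k) :
    step M (toS r.1) r.2 (cv δ r.2 s v) A e =
      if acc δ M r s A e (v e) then insert e A else A := by
  have hm : mask r.2 (cv δ r.2 s v) = fun a => if r.2 a = 0 then none else some (cls δ (s a)) := by
    funext a
    unfold mask cv
    split_ifs <;> rfl
  unfold step acc
  rw [hm]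
  by_cases h : r.2 e = 0
  · have : cv δ r.2 s v e = cls δ (v e) := by unfold cv; rw [if_pos h]
    rw [this]
    congr
  · rw [if_neg (fun h' => h h'.1), if_neg (fun h' => h h'.1)]

theorem aux_eq (δ : ℝ) (M : Matroid (Fin k)) (r : (J k N → Bool) × (Fin k → Fin (N + 1)))
    (s v : Fin k → ℝ) (l : List (Fin k)) : ∀ h : List (Fin k × ℝ),
    st δ M r s h ∪ sAcceptedAux (rule δ M N) r s v l h =
      l.foldl (step M (toS r.1) r.2 (cv δ r.2 s v)) (st δ M r s h) := by
  induction l with
  | nil => intro h; simp [sAcceptedAux]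
  | cons e l ih =>
    intro h
    have h1 : st δ M r s (h ++ [(e, v e)]) =
        step M (toS r.1) r.2 (cv δ r.2 s v) (st δ M r s h) e := by
      rw [step_eq]; unfold st; rw [List.foldl_append]; rfl
    rw [List.foldl_cons, ← h1, ← ih, h1, step_eq]
    simp only [sAcceptedAux, rule, decide_eq_true_eq]
    split_ifs
    · ext a; simp [or_assoc, or_left_comm]
    · simp

theorem acc_eq (δ : ℝ) (M : Matroid (Fin k)) (r : (J k N → Bool) × (Fin k → Fin (N + 1)))
    (s v : Fin k → ℝ) (l : List (Fin k)) :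
    sAccepted (rule δ M N) r s v l = run M (toS r.1) r.2 (cv δ r.2 s v) l := by
  have := aux_eq δ M r s v l []
  simpa [st, sAccepted, run] using this

theorem law {Ω : Type u} [MeasurableSpace Ω] (P : Measure Ω) [IsProbabilityMeasure P]
    (S V : Ω → Fin k → ℝ) (hS : Measurable S) (hV : Measurable V)
    (hind : iIndepFun
      (fun (i : Fin k × Bool) (ω : Ω) => if i.2 = true then S ω i.1 else V ω i.1) P)
    (hSV : ∀ e, P.map (fun ω => S ω e) = P.map (fun ω => V ω e)) (δ : ℝ)
    (χ : Fin k → Fin (N + 1)) :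
    Measurable (fun ω => cv δ χ (S ω) (V ω)) ∧ P.map (fun ω => cv δ χ (S ω) (V ω)) =
      Measure.pi fun e => (P.map (fun ω => V ω e)).map (cls δ) := by
  have hm : ∀ e, Measurable fun ω => if χ e = 0 then V ω e else S ω e := fun e => by
    split_ifs
    · exact (measurable_pi_apply e).comp hV
    · exact (measurable_pi_apply e).comp hS
  have hm' : ∀ e, Measurable fun ω => cv δ χ (S ω) (V ω) e := fun e => (meas_cls δ).comp (hm e)
  refine ⟨measurable_pi_lambda _ hm', ?_⟩
  have h1 : iIndepFun (fun e ω => cv δ χ (S ω) (V ω) e) P := by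
    have hinj : Function.Injective fun e : Fin k => (e, decide (χ e ≠ 0)) :=
      fun a b h => (Prod.ext_iff.1 h).1
    have h2 := (hind.precomp hinj).comp (fun _ => cls δ) (fun _ => meas_cls δ)
    convert h2 using 2 with e
    funext ω
    by_cases h : χ e = 0 <;> simp [cv, h]
  rw [(iIndepFun_iff_map_fun_eq_pi_map fun e => (hm' e).aemeasurable).1 h1]
  congr 1
  funext e
  have : (fun ω => cv δ χ (S ω) (V ω) e) = cls δ ∘ fun ω => if χ e = 0 then V ω e else S ω e := rfl
  rw [this, ← Measure.map_map (meas_cls δ) (hm e)]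
  congr 1
  split_ifs
  · rfl
  · exact hSV e

end Red

open Red in
theorem red (κ δ : ℝ) (N : ℕ) (h0 : 0 < δ) (h1 : δ < 1) (hκ : (2 : ℝ)⁻¹ ^ 310 ≤ κ * δ)
    (hC : Core κ δ N) (k : ℕ) (M : Matroid (Fin k)) :
    ∃ (ΩR : Type) (_ : MeasurableSpace ΩR) (μR : MeasureTheory.Measure ΩR) (R : SampleRule ΩR k),
      MeasureTheory.IsProbabilityMeasure μR ∧
      (∀ (r : ΩR) (s v : Fin k → ℝ) (order : List (Fin k)),
        M.Indep (sAccepted R r s v order : Set (Fin k))) ∧
      ∀ (Ω : Type u) [MeasurableSpace Ω] (P : MeasureTheory.Measure Ω)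
        [MeasureTheory.IsProbabilityMeasure P] (S V : Ω → Fin k → ℝ),
        Measurable S → Measurable V → (∀ ω e, 0 ≤ S ω e ∧ 0 ≤ V ω e) →
        ProbabilityTheory.iIndepFun
          (fun (i : Fin k × Bool) (ω : Ω) => if i.2 = true then S ω i.1 else V ω i.1) P →
        (∀ e, P.map (fun ω => S ω e) = P.map (fun ω => V ω e)) →
        ∫⁻ ω, optWeight M (V ω) ∂P ≠ ⊤ →
        (2 : ENNReal)⁻¹ ^ 310 * ∫⁻ ω, optWeight M (V ω) ∂P ≤
          ∫⁻ p, ⨅ σ : Equiv.Perm (Fin k),
            ENNReal.ofReal (∑ e ∈ sAccepted R p.1 (S p.2) (V p.2) (List.ofFn σ), V p.2 e)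
            ∂(μR.prod P) := by
  letI : MeasurableSpace (Option ℤ) := ⊤
  haveI : MeasurableSingletonClass (Option ℤ) := ⟨fun _ => trivial⟩
  have hI : ∀ c : Fin k → Option ℤ, ∃ I : Finset (Fin k), M.Indep (↑I : Set (Fin k)) ∧
      ∀ I' : Finset (Fin k), M.Indep (↑I' : Set (Fin k)) →
        ∑ e ∈ I', wt δ (c e) ≤ ∑ e ∈ I, wt δ (c e) := fun c => by
    obtain ⟨I, h2, h3⟩ := Finset.exists_max_image
      (Finset.univ.filter fun I : Finset (Fin k) => M.Indep (↑I : Set (Fin k)))
      (fun I => ∑ e ∈ I, wt δ (c e)) ⟨∅, by simp⟩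
    exact ⟨I, (Finset.mem_filter.1 h2).2, fun I' h => h3 I' (by simp [h])⟩
  choose I hI1 hI2 using hI
  set W : (Fin k → Option ℤ) → ℝ := fun c => ∑ e ∈ I c, wt δ (c e) with hW
  have hW0 : ∀ c, 0 ≤ W c := fun c => Finset.sum_nonneg fun _ _ => wt_nonneg h0 _
  set av : (Fin k → Option ℤ) → (J k N → Bool) → ℝ := fun c o =>
    (∑ χ : Fin k → Fin (N + 1), val δ M (toS o) χ c) / ((N : ℝ) + 1) ^ k with hav
  have havc : ∀ c, Continuous (av c) := fun c =>
    (continuous_finset_sum _ fun χ _ => cont_val δ M χ c).div_const _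
  obtain ⟨μ, hμ, hμ2⟩ := mix (fun c o => av c o - κ * W c)
    (fun c => (havc c).sub continuous_const) (fun _ => false) (fun s p hp hs => by
      obtain ⟨x, hx⟩ := hC k M s p I hp hs hI1
      refine ⟨fun j => x j.1 j.2.1 j.2.2.1 j.2.2.2.1 j.2.2.2.2, ?_⟩
      simp only [mul_sub, Finset.sum_sub_distrib, sub_nonneg]
      refine le_trans (le_of_eq ?_) hx
      rw [Finset.mul_sum]
      exact Finset.sum_congr rfl fun c _ => by ring)
  set ν : Measure (Fin k → Fin (N + 1)) := (((N : ℝ≥0∞) + 1) ^ k)⁻¹ • Measure.count with hν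
  have hNk : ((N : ℝ≥0∞) + 1) ^ k ≠ 0 := pow_ne_zero _ (by simp)
  have hNk' : ((N : ℝ≥0∞) + 1) ^ k ≠ ⊤ := ENNReal.pow_ne_top (by simp)
  haveI hνp : IsProbabilityMeasure ν := ⟨by
    rw [hν, Measure.smul_apply, Measure.count_univ, smul_eq_mul]
    simp only [ENat.card_eq_coe_fintype_card, Fintype.card_pi, Fintype.card_fin,
      Finset.prod_const, Finset.card_univ]
    push_cast
    exact ENNReal.inv_mul_cancel hNk hNk'⟩
  refine ⟨(J k N → Bool) × (Fin k → Fin (N + 1)), inferInstance, μ.prod ν, rule δ M N,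
    inferInstance, ?_, ?_⟩
  · intro r s v l
    rw [acc_eq]
    exact (fold_inv M _ _ _ l ∅ (by simp) (by simp)).1
  intro Ω _ P _ S V hS hV hnn hind hSV _
  set G : ((J k N → Bool) × (Fin k → Fin (N + 1))) × (Fin k → Option ℤ) → ℝ≥0∞ :=
    fun q => ENNReal.ofReal (val δ M (toS q.1.1) q.1.2 q.2) with hG
  have hGm : Measurable G := by
    refine measurable_from_prod_countable_left fun c => ?_
    refine measurable_from_prod_countable_left fun χ => ?_
    exact (cont_val δ M χ c).measurable.ennreal_ofReal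
  set lam : Measure (Fin k → Option ℤ) :=
    Measure.pi fun e => (P.map (fun ω => V ω e)).map (cls δ) with hlam
  have hl : ∀ χ : Fin k → Fin (N + 1), Measurable (fun ω => cv δ χ (S ω) (V ω)) ∧
      P.map (fun ω => cv δ χ (S ω) (V ω)) = lam := fun χ => law P S V hS hV hind hSV δ χ
  haveI : IsProbabilityMeasure lam := by
    rw [← (hl 0).2]; exact Measure.isProbabilityMeasure_map (hl 0).1.aemeasurable
  have hcm : Measurable fun p : ((J k N → Bool) × (Fin k → Fin (N + 1))) × Ω =>
      cv δ p.1.2 (S p.2) (V p.2) := by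
    have : Measurable fun p : Ω × (Fin k → Fin (N + 1)) => cv δ p.2 (S p.1) (V p.1) :=
      measurable_from_prod_countable_left fun χ => (hl χ).1
    exact this.comp (measurable_snd.prodMk (measurable_snd.comp measurable_fst))
  have hlow : ∀ c, ENNReal.ofReal (κ * W c) ≤ ∫⁻ r, G (r, c) ∂(μ.prod ν) := fun c => by
    rw [lintegral_prod (fun r => G (r, c))
      (hGm.comp (measurable_id.prodMk measurable_const)).aemeasurable]
    have e1 : ∀ o, ∫⁻ χ, G ((o, χ), c) ∂ν = ENNReal.ofReal (av c o) := fun o => by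
      rw [hν, lintegral_smul_measure, lintegral_count, tsum_fintype, smul_eq_mul]
      simp only [hG, hav]
      rw [ENNReal.ofReal_div_of_pos (by positivity), ENNReal.ofReal_sum_of_nonneg
        (fun χ _ => val_nonneg h0 M _ χ c), ENNReal.ofReal_pow (by positivity),
        ENNReal.ofReal_add (by positivity) (by norm_num), ENNReal.ofReal_natCast,
        ENNReal.ofReal_one, ENNReal.div_eq_inv_mul]
    simp only [e1]
    have hint : Integrable (av c) μ :=
      (BoundedContinuousFunction.mkOfCompact ⟨av c, havc c⟩).integrable μ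
    rw [← ofReal_integral_eq_lintegral_ofReal hint (Filter.Eventually.of_forall fun o =>
      div_nonneg (Finset.sum_nonneg fun χ _ => val_nonneg h0 M _ χ c) (by positivity))]
    apply ENNReal.ofReal_le_ofReal
    have := hμ2 c
    rw [integral_sub hint (integrable_const _)] at this
    simpa using this
  calc (2 : ENNReal)⁻¹ ^ 310 * ∫⁻ ω, optWeight M (V ω) ∂P
      = ∫⁻ ω, (2 : ENNReal)⁻¹ ^ 310 * optWeight M (V ω) ∂P :=
        (lintegral_const_mul' _ _ (ENNReal.pow_ne_top (by simp))).symm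
    _ ≤ ∫⁻ ω, ENNReal.ofReal (κ * W (cv δ (0 : Fin k → Fin (N + 1)) (S ω) (V ω))) ∂P := by
        refine lintegral_mono fun ω => ?_
        set c := cv δ (0 : Fin k → Fin (N + 1)) (S ω) (V ω) with hc
        have h2 : optWeight M (V ω) ≤ ENNReal.ofReal (W c / δ) := by
          refine iSup₂_le fun I' hI' => ENNReal.ofReal_le_ofReal ?_
          rw [le_div_iff₀ h0, Finset.sum_mul]
          refine le_trans (Finset.sum_le_sum fun e _ => ?_) (hI2 c I' hI')
          rw [mul_comm]
          exact (cls_spec h0 h1 (hnn ω e).2).2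
        have h3 : (2 : ENNReal)⁻¹ ^ 310 = ENNReal.ofReal ((2 : ℝ)⁻¹ ^ 310) := by
          rw [ENNReal.ofReal_pow (by norm_num), ENNReal.ofReal_inv_of_pos (by norm_num)]
          simp
        rw [h3]
        refine le_trans (mul_le_mul_right h2 _) ?_
        rw [← ENNReal.ofReal_mul (by positivity)]
        apply ENNReal.ofReal_le_ofReal
        calc (2 : ℝ)⁻¹ ^ 310 * (W c / δ) ≤ κ * δ * (W c / δ) :=
              mul_le_mul_of_nonneg_right hκ (div_nonneg (hW0 c) h0.le)
          _ = κ * W c := by field_simp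
    _ = ∫⁻ c, ENNReal.ofReal (κ * W c) ∂lam := by
        rw [← (hl 0).2, lintegral_map (measurable_of_countable _) (hl 0).1]
    _ ≤ ∫⁻ c, ∫⁻ r, G (r, c) ∂(μ.prod ν) ∂lam := lintegral_mono hlow
    _ = ∫⁻ r, ∫⁻ c, G (r, c) ∂lam ∂(μ.prod ν) :=
        (lintegral_lintegral_swap (f := fun r c => G (r, c)) hGm.aemeasurable).symm
    _ = ∫⁻ r, ∫⁻ ω, G (r, cv δ r.2 (S ω) (V ω)) ∂P ∂(μ.prod ν) := by
        refine lintegral_congr fun r => ?_
        rw [← (hl r.2).2, lintegral_map (measurable_of_countable _) (hl r.2).1]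
    _ = ∫⁻ p, G (p.1, cv δ p.1.2 (S p.2) (V p.2)) ∂((μ.prod ν).prod P) :=
        (lintegral_prod (fun p : ((J k N → Bool) × (Fin k → Fin (N + 1))) × Ω =>
          G (p.1, cv δ p.1.2 (S p.2) (V p.2)))
          (hGm.comp (measurable_fst.prodMk hcm)).aemeasurable).symm
    _ ≤ _ := by
        refine lintegral_mono fun p => le_iInf fun σ => ENNReal.ofReal_le_ofReal ?_
        refine le_trans (Finset.inf'_le _ (Finset.mem_univ σ)) ?_
        rw [acc_eq]
        refine Finset.sum_le_sum fun e he => ?_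
        have h2 := (fold_inv M (toS p.1.1) p.1.2 (cv δ p.1.2 (S p.2) (V p.2)) (List.ofFn σ) ∅
          (by simp) (by simp)).2 e he
        have h3 : cv δ p.1.2 (S p.2) (V p.2) e = cls δ (V p.2 e) := by
          unfold cv; rw [if_pos h2]
        show wt δ (cv δ p.1.2 (S p.2) (V p.2) e) ≤ _
        rw [h3]
        exact (cls_spec h0 h1 (hnn p.2 e).2).1

end Crest.Agent.R305
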